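import Vale.Agent.P069.Bdl.B1

open TopologicalSpace

namespace Vale.Agent.Results.P069.Main

theorem result :
    ∃ (Z : Type) (_ : NormedAddCommGroup Z) (_ : NormedSpace ℝ Z),
      CompleteSpace Z ∧ SeparableSpace Z ∧ ¬ FiniteDimensional ℝ Z ∧
      Vale.Agent.P069.IsReflexive Z ∧
      Vale.Agent.P069.IsAMUC (normSeminorm ℝ Z) ∧
      (∃ a : ℝ, 0 < a ∧ ∀ t : ℝ, 0 < t → t ≤ 1 →
        ((a * t ^ 2 : ℝ) : EReal) ≤ Vale.Agent.P069.amucModulus (normSeminorm ℝ Z) t) ∧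
      ¬ Vale.Agent.P069.AUCRenormable Z :=
  Vale.Agent.P069.assemble Vale.Agent.P069.XX (c := 1 / 16) (κ := 1 / 2) (by norm_num)
    (by norm_num) (by norm_num) Vale.Agent.P069.isReflexive_XX
    Vale.Agent.P069.dense_twoAMUC_XX Vale.Agent.P069.goodTree_XX

end Vale.Agent.Results.P069.Main
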